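import Vale.Agent.P258.R2.H550D9.Code

set_option linter.all false

/-!
The enumeration of the colourings of the first pattern, as nested functions of the codes of the
colours found so far.
-/

namespace Vale.Agent.P258.H550D9

open Vale.Agent.P258.H550P9 (F9 fmN faN ng en force force_eq mem look)

def st25 (t : ℕ) (g0 g12 g18 g13 g3 g14 g2 g17 g1 g4 g16 g8 g7 g9 g10 g11 g15 g5 g6 g19 g20 : ℕ) :
    Bool :=
  ((Nat.beq (mulN (invN g6) g10) 4097 && !(Nat.beq g19 4097)) || !(Nat.blt g19 65536)) ||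
    !(Nat.beq (mulN g0 g0) (mulN (mulN (mulN (mulN (mulN (mulN (mulN (mulN (mulN (mulN (mulN
      (mulN (mulN (mulN (mulN (mulN (mulN (mulN (mulN g8 (invN g17)) g14) (invN g1)) g15)
      (invN g20)) (invN g15)) g1) (invN g14)) g17) g19) (invN g8)) (invN g18)) g3) (invN g10))
      g11) (invN g14)) (invN g3)) (invN g12)) (mulN g0 (mulN g0 g0))))

def st24 (t : ℕ) (g0 g12 g18 g13 g3 g14 g2 g17 g1 g4 g16 g8 g7 g9 g10 g11 g15 g5 g6 g19 g20 : ℕ) :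
    Bool :=
  !(Nat.beq g5 (cjN g6 g20)) || st25 t g0 g12 g18 g13 g3 g14 g2 g17 g1 g4 g16 g8 g7 g9 g10 g11 g15
    g5 g6 g19 g20

def st23 (t : ℕ) (g0 g12 g18 g13 g3 g14 g2 g17 g1 g4 g16 g8 g7 g9 g10 g11 g15 g5 g6 g19 g20 : ℕ) :
    Bool :=
  !(Nat.beq g19 (cjN g20 g10)) || st24 t g0 g12 g18 g13 g3 g14 g2 g17 g1 g4 g16 g8 g7 g9 g10 g11
    g15 g5 g6 g19 g20

def st22 (t : ℕ) (g0 g12 g18 g13 g3 g14 g2 g17 g1 g4 g16 g8 g7 g9 g10 g11 g15 g5 g6 g19 : ℕ) :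
    Bool :=
  force (ciN g19 g6) fun g20 => st23 t g0 g12 g18 g13 g3 g14 g2 g17 g1 g4 g16 g8 g7 g9 g10 g11 g15
    g5 g6 g19 g20

def st21 (t : ℕ) (g0 g12 g18 g13 g3 g14 g2 g17 g1 g4 g16 g8 g7 g9 g10 g11 g15 g5 g6 : ℕ) : Bool :=
  force (invN (wN t g10)) fun u => force (wN t g11) fun w => (cen t).all fun c =>
    force (mulN (mulN u c) w) fun g19 => st22 t g0 g12 g18 g13 g3 g14 g2 g17 g1 g4 g16 g8 g7 g9
    g10 g11 g15 g5 g6 g19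

def st20 (t : ℕ) (g0 g12 g18 g13 g3 g14 g2 g17 g1 g4 g16 g8 g7 g9 g10 g11 g15 g5 : ℕ) : Bool :=
  force (cjN g7 g15) fun g6 => st21 t g0 g12 g18 g13 g3 g14 g2 g17 g1 g4 g16 g8 g7 g9 g10 g11 g15
    g5 g6

def st19 (t : ℕ) (g0 g12 g18 g13 g3 g14 g2 g17 g1 g4 g16 g8 g7 g9 g10 g11 g15 : ℕ) : Bool :=
  force (cjN g4 g15) fun g5 => st20 t g0 g12 g18 g13 g3 g14 g2 g17 g1 g4 g16 g8 g7 g9 g10 g11 g15
    g5

def st18 (t : ℕ) (g0 g12 g18 g13 g3 g14 g2 g17 g1 g4 g16 g8 g7 g9 g10 g11 g15 : ℕ) : Bool :=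
  !(Nat.beq g16 (cjN g15 g11)) || st19 t g0 g12 g18 g13 g3 g14 g2 g17 g1 g4 g16 g8 g7 g9 g10 g11
    g15

def st17 (t : ℕ) (g0 g12 g18 g13 g3 g14 g2 g17 g1 g4 g16 g8 g7 g9 g10 g11 : ℕ) : Bool :=
  force (ciN g14 g10) fun g15 => st18 t g0 g12 g18 g13 g3 g14 g2 g17 g1 g4 g16 g8 g7 g9 g10 g11
    g15

def st16 (t : ℕ) (g0 g12 g18 g13 g3 g14 g2 g17 g1 g4 g16 g8 g7 g9 g10 : ℕ) : Bool :=
  force (cjN g12 g8) fun g11 => st17 t g0 g12 g18 g13 g3 g14 g2 g17 g1 g4 g16 g8 g7 g9 g10 g11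

def st15 (t : ℕ) (g0 g12 g18 g13 g3 g14 g2 g17 g1 g4 g16 g8 g7 g9 : ℕ) : Bool :=
  force (cjN g9 g17) fun g10 => st16 t g0 g12 g18 g13 g3 g14 g2 g17 g1 g4 g16 g8 g7 g9 g10

def st14 (t : ℕ) (g0 g12 g18 g13 g3 g14 g2 g17 g1 g4 g16 g8 g7 : ℕ) : Bool :=
  force (ciN g8 g14) fun g9 => st15 t g0 g12 g18 g13 g3 g14 g2 g17 g1 g4 g16 g8 g7 g9

def st13 (t : ℕ) (g0 g12 g18 g13 g3 g14 g2 g17 g1 g4 g16 g8 : ℕ) : Bool :=
  force (ciN g8 g1) fun g7 => st14 t g0 g12 g18 g13 g3 g14 g2 g17 g1 g4 g16 g8 g7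

def st12 (t : ℕ) (g0 g12 g18 g13 g3 g14 g2 g17 g1 g4 g16 g8 : ℕ) : Bool :=
  !(trF t g8) || st13 t g0 g12 g18 g13 g3 g14 g2 g17 g1 g4 g16 g8

def st11 (t : ℕ) (g0 g12 g18 g13 g3 g14 g2 g17 g1 g4 g16 : ℕ) : Bool :=
  force (wN t g1) fun w => (cen t).all fun c => force (mulN c w) fun g8 => st12 t g0 g12 g18 g13
    g3 g14 g2 g17 g1 g4 g16 g8

def st10 (t : ℕ) (g0 g12 g18 g13 g3 g14 g2 g17 g1 g4 : ℕ) : Bool :=
  force (cjN g17 g14) fun g16 => st11 t g0 g12 g18 g13 g3 g14 g2 g17 g1 g4 g16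

def st9 (t : ℕ) (g0 g12 g18 g13 g3 g14 g2 g17 g1 : ℕ) : Bool :=
  force (ciN g3 g1) fun g4 => st10 t g0 g12 g18 g13 g3 g14 g2 g17 g1 g4

def st8 (t : ℕ) (g0 g12 g18 g13 g3 g14 g2 g17 : ℕ) : Bool :=
  force (cjN g2 g17) fun g1 => st9 t g0 g12 g18 g13 g3 g14 g2 g17 g1

def st7 (t : ℕ) (g0 g12 g18 g13 g3 g14 g2 : ℕ) : Bool :=
  force (cjN g18 g3) fun g17 => st8 t g0 g12 g18 g13 g3 g14 g2 g17

def st6 (t : ℕ) (g0 g12 g18 g13 g3 g14 : ℕ) : Bool :=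
  force (ciN g3 g14) fun g2 => st7 t g0 g12 g18 g13 g3 g14 g2

def st5 (t : ℕ) (g0 g12 g18 g13 g3 : ℕ) : Bool :=
  force (cjN g13 g3) fun g14 => st6 t g0 g12 g18 g13 g3 g14

def st4 (t : ℕ) (g0 g12 g18 g13 : ℕ) : Bool :=
  (cl t).all fun g3 => st5 t g0 g12 g18 g13 g3

def st3 (t : ℕ) (g0 g12 g18 : ℕ) : Bool :=
  force (ciN g12 g18) fun g13 => st4 t g0 g12 g18 g13

def st2 (t : ℕ) (g0 g12 : ℕ) : Bool :=
  force (cjN g0 g12) fun g18 => st3 t g0 g12 g18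

def st1 (t : ℕ) (g0 : ℕ) : Bool :=
  (orb t).all fun g12 => st2 t g0 g12

def st0 (t : ℕ) : Bool :=
  force (rep t) fun g0 => st1 t g0

theorem check : ((List.range 8).all fun t => st0 t) = true := by
  decide +kernel

end Vale.Agent.P258.H550D9
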